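import Vale.Agent.Lib.P015.Line

/-!
P015, hand-in: Gaussian-prime-free discs of every radius centred on every line of the plane, and no
infinite bounded-step walk through distinct Gaussian primes stays close to a line.
-/

namespace Vale.Agent.Results.P015.NearLine

theorem result :
    (∀ p v : ℂ, ‖v‖ = 1 → ∀ R : ℝ, ∃ t : ℝ, ∀ q : GaussianInt,
      ‖GaussianInt.toComplex q - (p + t * v)‖ ≤ R → ¬ Prime q) ∧
    (∀ p v : ℂ, ‖v‖ = 1 → ∀ D : ℝ, ¬ ∃ z : ℕ → GaussianInt, Function.Injective z ∧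
      (∀ n, Prime (z n)) ∧
      (∀ n, ‖GaussianInt.toComplex (z (n + 1)) - GaussianInt.toComplex (z n)‖ ≤ D) ∧
      ∀ n, Metric.infDist (GaussianInt.toComplex (z n)) {w : ℂ | ∃ t : ℝ, w = p + t * v} ≤
        1 / 2 * Real.sqrt (Real.log (2 + ‖GaussianInt.toComplex (z n)‖))) := by
  refine ⟨fun p v hv R => Vale.Agent.P015.line_discs p v hv R, ?_⟩
  rintro p v hv D ⟨z, hinj, hpr, hstep, hnear⟩
  refine Vale.Agent.P015.line_walk p v hv D z hinj hpr hstep fun n => le_trans ?_ (hnear n)
  -- the distance to the line is at least the absolute value of the rotated imaginary part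
  have hne : ({w : ℂ | ∃ t : ℝ, w = p + t * v}).Nonempty := ⟨p, 0, by simp⟩
  rw [Metric.le_infDist hne]
  rintro w ⟨t, rfl⟩
  rw [dist_eq_norm, ← Vale.Agent.P015.norm_conj hv]
  refine le_trans (le_of_eq ?_) (Complex.abs_im_le_norm _)
  have hvv : v * (starRingEnd ℂ) v = 1 := by
    rw [Complex.mul_conj, Complex.normSq_eq_norm_sq, hv]; simp
  have e1 : (GaussianInt.toComplex (z n) - (p + t * v)) * (starRingEnd ℂ) v =
      (GaussianInt.toComplex (z n) - p) * (starRingEnd ℂ) v - (t : ℂ) := by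
    linear_combination (-(t : ℂ)) * hvv
  rw [e1, Complex.sub_im, Complex.ofReal_im, sub_zero]

end Vale.Agent.Results.P015.NearLine
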