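import Vale.Agent.Lib.P015.Line
import Vale.Agent.Lib.P015.Strip
import Vale.Agent.Lib.P015.Curve
import Vale.Agent.Lib.P015.Poly

/-!
P015, hand-in: prime-free discs centred on every line and on every polynomial curve; bounded-step
walks through Gaussian primes near a line, in a strip, near a polynomial curve.
-/

namespace Vale.Agent.Results.P015.Walks

open GaussianInt Filter

theorem result :
    -- (1) prime-free discs of every radius centred on every line
    (∀ p v : ℂ, ‖v‖ = 1 → ∀ R : ℝ, ∃ t : ℝ, ∀ q : GaussianInt,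
      ‖toComplex q - (p + t * v)‖ ≤ R → ¬ Prime q) ∧
    -- (2) no infinite walk within distance (1/2) sqrt (log (2 + |z|)) of a line
    (∀ p v : ℂ, ‖v‖ = 1 → ∀ D : ℝ, ¬ ∃ z : ℕ → GaussianInt, Function.Injective z ∧
      (∀ n, Prime (z n)) ∧
      (∀ n, ‖toComplex (z (n + 1)) - toComplex (z n)‖ ≤ D) ∧
      ∀ n, Metric.infDist (toComplex (z n)) {w : ℂ | ∃ t : ℝ, w = p + t * v} ≤
        1 / 2 * Real.sqrt (Real.log (2 + ‖toComplex (z n)‖))) ∧
    -- (3) walks in a strip of given width, far from the origin, have uniformly bounded diameter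
    (∀ D h : ℝ, ∃ L r : ℝ, ∀ a b c : ℝ, a ^ 2 + b ^ 2 = 1 → ∀ (n : ℕ) (z : ℕ → GaussianInt),
      (∀ i ≤ n, Prime (z i)) → (∀ i ≤ n, r < ‖toComplex (z i)‖) →
      (∀ i < n, ‖toComplex (z (i + 1)) - toComplex (z i)‖ ≤ D) →
      (∀ i ≤ n, |a * (z i).im - b * (z i).re - c| ≤ h) →
      ‖toComplex (z n) - toComplex (z 0)‖ ≤ L) ∧
    -- (4) prime-free discs of every radius centred at values of every nonconstant polynomial
    (∀ f : Polynomial GaussianInt, 0 < f.natDegree → ∀ (R : ℝ) (N : ℤ), ∃ t : ℤ, N ≤ t ∧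
      ∀ q : GaussianInt, ‖toComplex q - toComplex (f.eval (t : GaussianInt))‖ ≤ R → ¬ Prime q) ∧
    -- (5) no infinite walk within bounded distance of a polynomial curve f(t)/m, t ≥ 0
    (∀ f : Polynomial GaussianInt, 0 < f.natDegree → ∀ m : ℕ, 0 < m → ∀ D ρ : ℝ,
      ¬ ∃ z : ℕ → GaussianInt, Function.Injective z ∧ (∀ n, Prime (z n)) ∧
        (∀ n, ‖toComplex (z (n + 1)) - toComplex (z n)‖ ≤ D) ∧
        ∀ n, ∃ t : ℝ, 0 ≤ t ∧ ‖toComplex (z n) - (f.map toComplex).eval (t : ℂ) / m‖ ≤ ρ) ∧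
    -- (6) no walk follows an asymptotically straight curve tending to infinity
    (∀ γ : ℝ → ℂ,
      (∃ u : ℝ → ℂ, (∀ t, ‖u t‖ = 1) ∧ ∀ S ε : ℝ, 0 < ε → ∃ T : ℝ, ∀ t, T ≤ t →
        ∀ s, 0 ≤ s → s ≤ S → ‖γ (t + s) - γ t - s * u t‖ ≤ ε) →
      Tendsto (fun t => ‖γ t‖) atTop atTop → ∀ C ρ : ℝ,
      ¬ ∃ (z : ℕ → GaussianInt) (t : ℕ → ℝ), (∀ k, Prime (z k)) ∧ Tendsto t atTop atTop ∧
        (∀ k, |t (k + 1) - t k| ≤ C) ∧ ∀ k, ‖toComplex (z k) - γ (t k)‖ ≤ ρ) := by
  refine ⟨fun p v hv R => Vale.Agent.P015.line_discs p v hv R, ?_, ?_, ?_, ?_,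
    fun γ hγ hinf C ρ => Vale.Agent.P015.Strips.curve γ hγ hinf C ρ⟩
  · rintro p v hv D ⟨z, hinj, hpr, hstep, hnear⟩
    refine Vale.Agent.P015.line_walk p v hv D z hinj hpr hstep fun n => le_trans ?_ (hnear n)
    -- the distance to the line is the absolute value of the rotated imaginary part
    have hne : ({w : ℂ | ∃ t : ℝ, w = p + t * v}).Nonempty := ⟨p, 0, by simp⟩
    rw [Metric.le_infDist hne]
    rintro w ⟨t, rfl⟩
    rw [dist_eq_norm, ← Vale.Agent.P015.norm_conj hv]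
    refine le_trans (le_of_eq ?_) (Complex.abs_im_le_norm _)
    have hvv : v * (starRingEnd ℂ) v = 1 := by
      rw [Complex.mul_conj, Complex.normSq_eq_norm_sq, hv]; simp
    have e1 : (toComplex (z n) - (p + t * v)) * (starRingEnd ℂ) v =
        (toComplex (z n) - p) * (starRingEnd ℂ) v - (t : ℂ) := by
      linear_combination (-(t : ℂ)) * hvv
    rw [e1, Complex.sub_im, Complex.ofReal_im, sub_zero]
  · intro D h
    obtain ⟨L, r, hL, H⟩ := Vale.Agent.P015.Strips.strip D h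
    refine ⟨L, Real.sqrt (|r|), fun a b c hab n z hpr hr hstep hs => ?_⟩
    have h1 := H a b c hab n z hpr (fun i hi => ?_) (fun i hi => ?_) hs
    · rw [Vale.Agent.P015.norm_real, toComplex_sub] at h1
      exact abs_le_of_sq_le_sq' h1 hL |>.2
    · have h2 := hr i hi
      rw [Vale.Agent.P015.norm_real]
      have h3 : Real.sqrt (|r|) ^ 2 = |r| := Real.sq_sqrt (abs_nonneg r)
      have h4 := Real.sqrt_nonneg (|r|)
      have h5 := le_abs_self r
      nlinarith
    · have h2 := hstep i hi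
      rw [Vale.Agent.P015.norm_real, toComplex_sub]
      exact pow_le_pow_left₀ (_root_.norm_nonneg _) h2 2
  · intro f hf R N
    obtain ⟨t, ht, hd⟩ := Vale.Agent.P015.Curve.poly_discs f hf R N
    exact ⟨t, ht, fun q hq hp => hd q hq hp.irreducible⟩
  · rintro f hf m hm D ρ ⟨z, hinj, hpr, hstep, hnear⟩
    exact Vale.Agent.P015.Curve.poly_moat f hf m hm D ρ
      ⟨z, hinj, fun k => (hpr k).irreducible, hstep, hnear⟩

end Vale.Agent.Results.P015.Walks
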